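import Mathlib

/-!
# Noncommutative formulas and matrix evaluation (problem P314)
-/

namespace Vale.Agent.P314

universe u

/-- Noncommutative formulas over `F` in the variables `x_i`, `i : Fin n`: rooted binary trees whose
leaves are variables or scalars and whose internal vertices are addition gates or (ordered)
multiplication gates. -/
inductive NCFormula (F : Type u) (n : ℕ) : Type u
  | var : Fin n → NCFormula F n
  | const : F → NCFormula F n
  | add : NCFormula F n → NCFormula F n → NCFormula F n
  | mul : NCFormula F n → NCFormula F n → NCFormula F n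

namespace NCFormula

variable {F : Type u} {n : ℕ}

/-- The size of a formula: the total number of vertices, leaves included. -/
def size : NCFormula F n → ℕ
  | var _ => 1
  | const _ => 1
  | add f g => f.size + g.size + 1
  | mul f g => f.size + g.size + 1

/-- The polynomial in the free associative algebra computed by a formula. -/
noncomputable def poly [Field F] : NCFormula F n → FreeAlgebra F (Fin n)
  | var i => FreeAlgebra.ι F i
  | const a => algebraMap F (FreeAlgebra F (Fin n)) a
  | add f g => f.poly + g.poly
  | mul f g => f.poly * g.poly

/-- `Π` formulas: no addition gate (they compute a scalar times a word). -/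
def IsPi : NCFormula F n → Prop
  | var _ => True
  | const _ => True
  | add _ _ => False
  | mul f g => f.IsPi ∧ g.IsPi

/-- `ΣΠ` formulas: addition gates on top of `Π` formulas (sums of monomials). -/
def IsSigmaPi : NCFormula F n → Prop
  | var _ => True
  | const _ => True
  | add f g => f.IsSigmaPi ∧ g.IsSigmaPi
  | mul f g => f.IsPi ∧ g.IsPi

/-- `ΠΣΠ` formulas: multiplication gates on top of `ΣΠ` formulas
(ordered products of sums of monomials). -/
def IsPiSigmaPi : NCFormula F n → Prop
  | var _ => True
  | const _ => True
  | add f g => f.IsSigmaPi ∧ g.IsSigmaPi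
  | mul f g => f.IsPiSigmaPi ∧ g.IsPiSigmaPi

end NCFormula

/-- The explicit tuple `T^{(k)} = (T^{(k)}_i)_{i < n}` of `(s+1) × (s+1)` matrices:
`T^{(k)}_i` has the entry `p_{a n + i} ^ k` in position `(a, a+1)` (rows and columns numbered from
`0`, `p_0 = 2, p_1 = 3, ...` the primes) and zeros elsewhere. -/
noncomputable def primeShift (F : Type u) [Field F] (n s k : ℕ) (i : Fin n) :
    Matrix (Fin (s + 1)) (Fin (s + 1)) F :=
  Matrix.of fun a b =>
    if (a : ℕ) + 1 = (b : ℕ) then ((Nat.nth Nat.Prime ((a : ℕ) * n + (i : ℕ)) : ℕ) : F) ^ k else 0

end Vale.Agent.P314
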