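import Mathlib

/-!
# Real zeros of exponential sums

An exponential sum `x ↦ ∑ l ∈ Λ, r l * exp (l * x)` with `m + 1` distinct real frequencies and
nonzero coefficients has at most `m` real zeros (Rolle + induction).
-/

namespace Vale.Agent.P314

open Finset

theorem expsum_zeros (m : ℕ) : ∀ (Λ : Finset ℝ) (r : ℝ → ℝ), Λ.card = m + 1 →
    (∀ l ∈ Λ, r l ≠ 0) → ∀ Z : Finset ℝ,
    (∀ x ∈ Z, ∑ l ∈ Λ, r l * Real.exp (l * x) = 0) → Z.card ≤ m := by
  induction m with
  | zero =>
    intro Λ r hc hr Z hZ
    obtain ⟨l, rfl⟩ := Finset.card_eq_one.mp hc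
    rw [Nat.le_zero, Finset.card_eq_zero, Finset.eq_empty_iff_forall_notMem]
    intro x hx
    have := hZ x hx
    simp only [Finset.sum_singleton] at this
    exact (mul_ne_zero (hr l (by simp)) (Real.exp_pos _).ne') this
  | succ m ih =>
    intro Λ r hc hr Z hZ
    have hne : Λ.Nonempty := by
      rw [← Finset.card_pos]; omega
    obtain ⟨l0, hl0⟩ := hne
    -- the new frequency set and coefficients
    set Λ' : Finset ℝ := (Λ.erase l0).image (fun l => l - l0) with hΛ'
    set r' : ℝ → ℝ := fun ν => r (ν + l0) * ν with hr'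
    have hcard' : Λ'.card = m + 1 := by
      rw [hΛ', Finset.card_image_of_injective _ (sub_left_injective), Finset.card_erase_of_mem hl0, hc]
      rfl
    have hr'ne : ∀ ν ∈ Λ', r' ν ≠ 0 := by
      intro ν hν
      rw [hΛ', Finset.mem_image] at hν
      obtain ⟨l, hl, rfl⟩ := hν
      rw [Finset.mem_erase] at hl
      simp only [hr', sub_add_cancel]
      exact mul_ne_zero (hr l hl.2) (sub_ne_zero.mpr hl.1)
    -- the auxiliary function and its derivative
    set g : ℝ → ℝ := fun x => ∑ l ∈ Λ, r l * Real.exp ((l - l0) * x) with hg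
    set g' : ℝ → ℝ := fun x => ∑ ν ∈ Λ', r' ν * Real.exp (ν * x) with hg'
    have hgz : ∀ x ∈ Z, g x = 0 := by
      intro x hx
      have h1 : g x = Real.exp (-(l0 * x)) * ∑ l ∈ Λ, r l * Real.exp (l * x) := by
        simp only [hg, Finset.mul_sum]
        refine Finset.sum_congr rfl fun l _ => ?_
        rw [show (l - l0) * x = -(l0 * x) + l * x by ring, Real.exp_add]
        ring
      rw [h1, hZ x hx, mul_zero]
    have hderiv : ∀ x, HasDerivAt g (g' x) x := by
      intro x
      have h2 : g' x = ∑ l ∈ Λ, r l * (Real.exp ((l - l0) * x) * (l - l0)) := by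
        simp only [hg', hΛ', hr']
        rw [Finset.sum_image (fun a _ b _ h => sub_left_injective h)]
        rw [← Finset.add_sum_erase Λ _ hl0]
        simp only [sub_self, mul_zero, zero_add, sub_add_cancel]
        refine Finset.sum_congr rfl fun l _ => ?_
        ring
      rw [h2]
      simp only [hg]
      refine HasDerivAt.fun_sum fun l _ => ?_
      refine HasDerivAt.const_mul _ ?_
      have : HasDerivAt (fun x : ℝ => (l - l0) * x) (l - l0) x := by
        simpa using (hasDerivAt_id x).const_mul (l - l0)
      exact this.exp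
    -- zero set of g' is finite of card ≤ m
    have hfin : {x : ℝ | g' x = 0}.Finite := by
      by_contra hinf
      obtain ⟨t, ht, htc⟩ := (Set.not_finite.mp hinf |> fun h => Set.Infinite.exists_subset_card_eq h (m + 1))
      have := ih Λ' r' hcard' hr'ne t (fun x hx => ht hx)
      omega
    have hle : hfin.toFinset.card ≤ m :=
      ih Λ' r' hcard' hr'ne hfin.toFinset (fun x hx => by simpa using hx)
    have hint : Z.card ≤ hfin.toFinset.card + 1 := by
      refine Finset.card_le_of_interleaved fun x hx y hy hxy _ => ?_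
      obtain ⟨z, hz1, hz2⟩ := exists_hasDerivAt_eq_zero hxy
        (fun u _ => (hderiv u).continuousAt.continuousWithinAt)
        ((hgz x hx).trans (hgz y hy).symm) (fun u _ => hderiv u)
      exact ⟨z, by simpa using hz2, hz1.1, hz1.2⟩
    omega

end Vale.Agent.P314
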