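import Vale.Agent.P314.ExpSum

namespace Vale.Agent.P314

open Finset

theorem expsum_zeros' {ι : Type*} (S : Finset ι) (lam : ι → ℝ) (hinj : Set.InjOn lam S)
    (r : ι → ℝ) (hr : ∀ i ∈ S, r i ≠ 0) (hne : S.Nonempty) (Z : Finset ℝ)
    (hZ : ∀ x ∈ Z, ∑ i ∈ S, r i * Real.exp (lam i * x) = 0) : Z.card + 1 ≤ S.card := by
  classical
  have : Nonempty ι := ⟨hne.choose⟩
  obtain ⟨m, hm⟩ : ∃ m, S.card = m + 1 := ⟨S.card - 1, by have := hne.card_pos; omega⟩
  have hinv : ∀ i ∈ S, Function.invFunOn lam S (lam i) = i := fun i hi =>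
    hinj.leftInvOn_invFunOn hi
  have := expsum_zeros m (S.image lam) (fun l => r (Function.invFunOn lam S l))
    (by rw [Finset.card_image_of_injOn hinj, hm])
    (by
      intro l hl
      rw [Finset.mem_image] at hl
      obtain ⟨i, hi, rfl⟩ := hl
      simp only [hinv i hi]
      exact hr i hi) Z
    (by
      intro x hx
      rw [Finset.sum_image (fun a ha b hb h => hinj ha hb h)]
      rw [← hZ x hx]
      refine Finset.sum_congr rfl fun i hi => ?_
      simp only [hinv i hi])
  omega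

/-- A sum `k ↦ ∑ i ∈ S, c i * (b i) ^ k` with distinct positive integer bases `b i` and
coefficients in a field of characteristic zero, not all zero, vanishes for at most `|S| - 1`
natural numbers `k`. -/
theorem natpow_sum_zeros {F : Type*} [Field F] [CharZero F] {ι : Type*} (S : Finset ι)
    (b : ι → ℕ) (hinjb : Set.InjOn b S)
    (hpos : ∀ i ∈ S, 0 < b i) (c : ι → F) (hc : ∃ i ∈ S, c i ≠ 0) (K : Finset ℕ)
    (hK : ∀ k ∈ K, ∑ i ∈ S, c i * (b i : F) ^ k = 0) : K.card + 1 ≤ S.card := by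
  classical
  obtain ⟨i0, hi0, hci0⟩ := hc
  obtain ⟨φ, hφ⟩ : ∃ φ : Module.Dual ℚ F, φ (c i0) ≠ 0 := by
    by_contra hcon
    push Not at hcon
    exact hci0 ((Module.forall_dual_apply_eq_zero_iff ℚ (c i0)).mp hcon)
  set S' := S.filter (fun i => φ (c i) ≠ 0) with hS'
  have hS'ne : S'.Nonempty := ⟨i0, by simp [hS', hi0, hφ]⟩
  have hsum : ∀ k ∈ K,
      ∑ i ∈ S', ((φ (c i) : ℚ) : ℝ) * Real.exp (Real.log (b i : ℝ) * (k : ℝ)) = 0 := by
    intro k hk
    have h1 : φ (∑ i ∈ S, c i * (b i : F) ^ k) = 0 := by rw [hK k hk, map_zero]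
    rw [map_sum] at h1
    have h2 : ∀ i ∈ S, φ (c i * (b i : F) ^ k) = φ (c i) * (b i : ℚ) ^ k := by
      intro i _
      have : c i * (b i : F) ^ k = ((b i : ℚ) ^ k) • c i := by
        rw [Algebra.smul_def, mul_comm]
        simp
      rw [this, map_smul, smul_eq_mul, mul_comm]
    rw [Finset.sum_congr rfl h2] at h1
    have h3 : ∑ i ∈ S', φ (c i) * (b i : ℚ) ^ k = 0 := by
      rw [hS', Finset.sum_filter]
      refine Eq.trans ?_ h1
      refine Finset.sum_congr rfl fun i _ => ?_
      by_cases h : φ (c i) = 0 <;> simp [h]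
    have h4 : ((∑ i ∈ S', φ (c i) * (b i : ℚ) ^ k : ℚ) : ℝ) = 0 := by rw [h3]; simp
    rw [← h4]
    push_cast
    refine Finset.sum_congr rfl fun i hi => ?_
    have hβpos : (0 : ℝ) < b i := by
      have := hpos i (Finset.mem_filter.mp hi).1
      exact_mod_cast this
    rw [mul_comm (Real.log _), Real.exp_nat_mul, Real.exp_log hβpos]
  have hinj : Set.InjOn (fun i : ι => Real.log (b i : ℝ)) S' := by
    intro x hx y hy hxy
    have hx1 := (Finset.mem_filter.mp hx).1
    have hy1 := (Finset.mem_filter.mp hy).1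
    have hx' : (0 : ℝ) < b x := by exact_mod_cast hpos x hx1
    have hy' : (0 : ℝ) < b y := by exact_mod_cast hpos y hy1
    have := Real.log_injOn_pos (Set.mem_Ioi.mpr hx') (Set.mem_Ioi.mpr hy') hxy
    exact hinjb hx1 hy1 (by exact_mod_cast this)
  have hmain := expsum_zeros' S' (fun i : ι => Real.log (b i : ℝ)) hinj
    (fun i => ((φ (c i) : ℚ) : ℝ))
    (by
      intro i hi
      have := (Finset.mem_filter.mp hi).2
      exact_mod_cast this) hS'ne (K.image (fun k : ℕ => (k : ℝ)))
    (by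
      intro x hx
      rw [Finset.mem_image] at hx
      obtain ⟨k, hk, rfl⟩ := hx
      exact hsum k hk)
  rw [Finset.card_image_of_injective _ Nat.cast_injective] at hmain
  exact hmain.trans (Finset.card_le_card (Finset.filter_subset _ _))

end Vale.Agent.P314
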