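import Vale.Agent.P314.Words
import Vale.Agent.P314.ExpSum2

namespace Vale.Agent.P314

universe u

open Finset

variable {F : Type u} [Field F] {n : ℕ}

/-- coefficient function of a noncommutative polynomial -/
noncomputable def co (p : FreeAlgebra F (Fin n)) : FreeMonoid (Fin n) →₀ F :=
  (FreeAlgebra.equivMonoidAlgebraFreeMonoid p).coeff

lemma co_eq_zero_iff (p : FreeAlgebra F (Fin n)) : co p = 0 ↔ p = 0 := by
  unfold co
  rw [MonoidAlgebra.coeff_eq_zero]
  exact EmbeddingLike.map_eq_zero_iff

lemma co_add (p q : FreeAlgebra F (Fin n)) : co (p + q) = co p + co q := by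
  unfold co
  rw [map_add, MonoidAlgebra.coeff_add]

lemma lift_eq_sum {A : Type*} [Ring A] [Algebra F A] (T : Fin n → A) (p : FreeAlgebra F (Fin n)) :
    FreeAlgebra.lift F T p = (co p).sum fun w c => c • FreeMonoid.lift T w := by
  have h : FreeAlgebra.lift F T =
      (MonoidAlgebra.lift F A (FreeMonoid (Fin n)) (FreeMonoid.lift T)).comp
        (FreeAlgebra.equivMonoidAlgebraFreeMonoid : FreeAlgebra F (Fin n) ≃ₐ[F] _).toAlgHom := by
    ext i
    simp [FreeAlgebra.equivMonoidAlgebraFreeMonoid]
  rw [h]
  simp only [AlgHom.comp_apply]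
  rw [MonoidAlgebra.lift_apply]
  rfl

/-- entries of the evaluation at the explicit tuple -/
lemma entry_eq (s k : ℕ) (p : FreeAlgebra F (Fin n)) (a b : Fin (s + 1)) :
    (FreeAlgebra.lift F (primeShift F n s k) p) a b =
      ∑ w ∈ (co p).support, (co p) w *
        (if (a : ℕ) + (FreeMonoid.toList w).length = (b : ℕ)
          then ((mu n (FreeMonoid.toList w) a : ℕ) : F) ^ k else 0) := by
  rw [lift_eq_sum, Finsupp.sum, Matrix.sum_apply]
  refine Finset.sum_congr rfl fun w _ => ?_
  rw [Matrix.smul_apply, smul_eq_mul, FreeMonoid.lift_apply, word_entry]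

/-- `Good s p e z`: in the evaluation of `p` at the tuples `primeShift F n s k`, all entries more
than `e` above the diagonal vanish, and every entry exactly `e` above the diagonal vanishes for at
most `z` values of `k`. -/
def Good (s : ℕ) (p : FreeAlgebra F (Fin n)) (e z : ℕ) : Prop :=
  (∀ (k : ℕ) (a b : Fin (s + 1)), (a : ℕ) + e < (b : ℕ) →
    (FreeAlgebra.lift F (primeShift F n s k) p) a b = 0) ∧
  (∀ (a b : Fin (s + 1)), (a : ℕ) + e = (b : ℕ) → ∀ K : Finset ℕ,
    (∀ k ∈ K, (FreeAlgebra.lift F (primeShift F n s k) p) a b = 0) → K.card ≤ z)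

lemma Good.mul {s : ℕ} {p q : FreeAlgebra F (Fin n)} {e z e' z' : ℕ}
    (hp : Good s p e z) (hq : Good s q e' z') : Good s (p * q) (e + e') (z + z') := by
  classical
  constructor
  · intro k a b hab
    rw [map_mul, Matrix.mul_apply]
    refine Finset.sum_eq_zero fun c _ => ?_
    by_cases hc : (a : ℕ) + e < (c : ℕ)
    · rw [hp.1 k a c hc, zero_mul]
    · rw [hq.1 k c b (by omega), mul_zero]
  · intro a b hab K hK
    have hc0 : (a : ℕ) + e < s + 1 := by have := b.isLt; omega
    set c0 : Fin (s + 1) := ⟨(a : ℕ) + e, hc0⟩ with hc0def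
    have hprod : ∀ k, (FreeAlgebra.lift F (primeShift F n s k) (p * q)) a b =
        (FreeAlgebra.lift F (primeShift F n s k) p) a c0 *
          (FreeAlgebra.lift F (primeShift F n s k) q) c0 b := by
      intro k
      rw [map_mul, Matrix.mul_apply]
      refine Finset.sum_eq_single c0 ?_ ?_
      · intro c _ hc
        have hne : (c : ℕ) ≠ (a : ℕ) + e := fun h => hc (Fin.ext h)
        by_cases hc' : (a : ℕ) + e < (c : ℕ)
        · rw [hp.1 k a c hc', zero_mul]
        · rw [hq.1 k c b (by omega), mul_zero]
      · intro h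
        exact absurd (Finset.mem_univ _) h
    have h1 := hp.2 a c0 rfl
      (K.filter fun k => (FreeAlgebra.lift F (primeShift F n s k) p) a c0 = 0)
      (fun k hk => (Finset.mem_filter.mp hk).2)
    have h2 := hq.2 c0 b (by simp only [hc0def]; omega)
      (K.filter fun k => (FreeAlgebra.lift F (primeShift F n s k) q) c0 b = 0)
      (fun k hk => (Finset.mem_filter.mp hk).2)
    have hsub : K ⊆ (K.filter fun k => (FreeAlgebra.lift F (primeShift F n s k) p) a c0 = 0) ∪
        (K.filter fun k => (FreeAlgebra.lift F (primeShift F n s k) q) c0 b = 0) := by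
      intro k hk
      have := hK k hk
      rw [hprod k] at this
      rcases mul_eq_zero.mp this with h | h
      · exact Finset.mem_union_left _ (Finset.mem_filter.mpr ⟨hk, h⟩)
      · exact Finset.mem_union_right _ (Finset.mem_filter.mpr ⟨hk, h⟩)
    calc K.card ≤ _ := Finset.card_le_card hsub
      _ ≤ _ := Finset.card_union_le _ _
      _ ≤ z + z' := Nat.add_le_add h1 h2

/-- A nonzero polynomial with at most `t + 1` monomials, all of length at most `L`, is `Good`. -/
lemma good_of_sparse [CharZero F] (s : ℕ) (p : FreeAlgebra F (Fin n)) (hp : p ≠ 0) (t L : ℕ)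
    (hcard : (co p).support.card ≤ t + 1)
    (hlen : ∀ w ∈ (co p).support, (FreeMonoid.toList w).length ≤ L) :
    ∃ e ≤ L, Good s p e t := by
  classical
  have hne : (co p).support.Nonempty := by
    rw [Finsupp.support_nonempty_iff]
    exact fun h => hp ((co_eq_zero_iff p).mp h)
  obtain ⟨w0, hw0, hmax⟩ := Finset.exists_max_image (co p).support
    (fun w => (FreeMonoid.toList w).length) hne
  refine ⟨(FreeMonoid.toList w0).length, hlen w0 hw0, ?_, ?_⟩
  · intro k a b hab
    rw [entry_eq]
    refine Finset.sum_eq_zero fun w hw => ?_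
    have := hmax w hw
    rw [if_neg (by omega), mul_zero]
  · intro a b hab K hK
    set S := (co p).support.filter
      (fun w => (FreeMonoid.toList w).length = (FreeMonoid.toList w0).length) with hS
    have hKS : ∀ k ∈ K, ∑ w ∈ S, (co p) w * ((mu n (FreeMonoid.toList w) a : ℕ) : F) ^ k = 0 := by
      intro k hk
      have h := hK k hk
      rw [entry_eq] at h
      rw [hS, Finset.sum_filter]
      refine Eq.trans ?_ h
      refine Finset.sum_congr rfl fun w _ => ?_
      by_cases hw : (FreeMonoid.toList w).length = (FreeMonoid.toList w0).length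
      · rw [if_pos hw, if_pos (by omega)]
      · rw [if_neg hw, if_neg (by omega), mul_zero]
    have := natpow_sum_zeros S (fun w => mu n (FreeMonoid.toList w) a)
      (by
        intro w hw w' hw' h
        have h1 := (Finset.mem_filter.mp hw).2
        have h2 := (Finset.mem_filter.mp hw').2
        exact FreeMonoid.toList.injective (mu_inj _ _ a (h1.trans h2.symm) h))
      (fun w _ => mu_pos n _ _) (fun w => (co p) w)
      ⟨w0, Finset.mem_filter.mpr ⟨hw0, rfl⟩, Finsupp.mem_support_iff.mp hw0⟩ K hKS
    have hSc : S.card ≤ (co p).support.card := Finset.card_le_card (Finset.filter_subset _ _)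
    omega

end Vale.Agent.P314
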