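import Vale.Agent.P314.Main

namespace Vale.Agent.P314

universe u

open Finset NCFormula

variable {F : Type u} [Field F] {n : ℕ}

lemma co_pi (f : NCFormula F n) (hf : f.IsPi) :
    ∃ (c : F) (w : FreeMonoid (Fin n)), co f.poly = Finsupp.single w c ∧
      (FreeMonoid.toList w).length ≤ f.size := by
  induction f with
  | var i =>
    refine ⟨1, FreeMonoid.of i, ?_, by simp [size]⟩
    simp [co, poly, FreeAlgebra.equivMonoidAlgebraFreeMonoid]
  | const a =>
    refine ⟨a, 1, ?_, by simp [size]⟩
    simp [co, poly, MonoidAlgebra.coe_algebraMap]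
  | add f g _ _ => exact absurd hf (by simp [IsPi])
  | mul f g ihf ihg =>
    obtain ⟨c, w, h1, h2⟩ := ihf hf.1
    obtain ⟨c', w', h1', h2'⟩ := ihg hf.2
    refine ⟨c * c', w * w', ?_, ?_⟩
    · unfold co at h1 h1' ⊢
      have e1 : FreeAlgebra.equivMonoidAlgebraFreeMonoid f.poly = MonoidAlgebra.single w c := by
        apply MonoidAlgebra.coeff_injective
        rw [h1, MonoidAlgebra.coeff_single]
      have e2 : FreeAlgebra.equivMonoidAlgebraFreeMonoid g.poly = MonoidAlgebra.single w' c' := by
        apply MonoidAlgebra.coeff_injective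
        rw [h1', MonoidAlgebra.coeff_single]
      simp only [poly]
      rw [map_mul, e1, e2, MonoidAlgebra.single_mul_single, MonoidAlgebra.coeff_single]
    · simp only [FreeMonoid.toList_mul, List.length_append, size]
      omega

lemma co_sigmaPi (f : NCFormula F n) (hf : f.IsSigmaPi) :
    ∃ L A : ℕ, L + A ≤ f.size ∧ (co f.poly).support.card ≤ A + 1 ∧
      ∀ w ∈ (co f.poly).support, (FreeMonoid.toList w).length ≤ L := by
  classical
  have key : ∀ g : NCFormula F n, g.IsPi → ∃ L A : ℕ, L + A ≤ g.size ∧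
      (co g.poly).support.card ≤ A + 1 ∧
      ∀ w ∈ (co g.poly).support, (FreeMonoid.toList w).length ≤ L := by
    intro g hg
    obtain ⟨c, w, h1, h2⟩ := co_pi g hg
    refine ⟨(FreeMonoid.toList w).length, 0, by omega, ?_, ?_⟩
    · rw [h1]
      exact (Finset.card_le_card Finsupp.support_single_subset).trans (by simp)
    · intro w' hw'
      rw [h1] at hw'
      have := Finsupp.support_single_subset hw'
      rw [Finset.mem_singleton] at this
      rw [this]
  induction f with
  | var i => exact key _ (by simp [IsPi])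
  | const a => exact key _ (by simp [IsPi])
  | mul f g _ _ => exact key _ hf
  | add f g ihf ihg =>
    obtain ⟨L, A, h1, h2, h3⟩ := ihf hf.1
    obtain ⟨L', A', h1', h2', h3'⟩ := ihg hf.2
    refine ⟨max L L', A + A' + 1, ?_, ?_, ?_⟩
    · simp only [size]
      have : max L L' ≤ L + L' := max_le (by omega) (by omega)
      omega
    · simp only [poly, co_add]
      calc _ ≤ ((co f.poly).support ∪ (co g.poly).support).card :=
            Finset.card_le_card Finsupp.support_add
        _ ≤ _ := Finset.card_union_le _ _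
        _ ≤ _ := by omega
    · intro w hw
      simp only [poly, co_add] at hw
      rcases Finset.mem_union.mp (Finsupp.support_add hw) with h | h
      · exact (h3 w h).trans (le_max_left _ _)
      · exact (h3' w h).trans (le_max_right _ _)

lemma good_piSigmaPi [CharZero F] (s : ℕ) (f : NCFormula F n) (hf : f.IsPiSigmaPi)
    (h0 : f.poly ≠ 0) : ∃ e z : ℕ, e + z ≤ f.size ∧ Good s f.poly e z := by
  have key : ∀ g : NCFormula F n, g.IsSigmaPi → g.poly ≠ 0 →
      ∃ e z : ℕ, e + z ≤ g.size ∧ Good s g.poly e z := by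
    intro g hg hg0
    obtain ⟨L, A, h1, h2, h3⟩ := co_sigmaPi g hg
    obtain ⟨e, he, hgood⟩ := good_of_sparse s g.poly hg0 A L h2 h3
    exact ⟨e, A, by omega, hgood⟩
  induction f with
  | var i => exact key _ (by simp [IsSigmaPi]) h0
  | const a => exact key _ (by simp [IsSigmaPi]) h0
  | add f g _ _ => exact key _ hf h0
  | mul f g ihf ihg =>
    simp only [poly] at h0
    obtain ⟨e, z, h1, h2⟩ := ihf hf.1 (left_ne_zero_of_mul h0)
    obtain ⟨e', z', h1', h2'⟩ := ihg hf.2 (right_ne_zero_of_mul h0)
    refine ⟨e + e', z + z', ?_, h2.mul h2'⟩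
    simp only [size]
    omega

theorem hitting_piSigmaPi [CharZero F] (s : ℕ) (f : NCFormula F n) (hf : f.IsPiSigmaPi)
    (hs : f.size ≤ s) (h0 : f.poly ≠ 0) :
    ∃ k ≤ s, FreeAlgebra.lift F (primeShift F n s k) f.poly ≠ 0 := by
  obtain ⟨e, z, h1, h2⟩ := good_piSigmaPi s f hf h0
  by_contra hcon
  push Not at hcon
  have := h2.2 (⟨0, by omega⟩ : Fin (s + 1)) (⟨e, by omega⟩ : Fin (s + 1)) (by simp)
    (Finset.range (s + 1)) (by
      intro k hk
      rw [hcon k (by simpa [Nat.lt_succ_iff] using hk)]
      rfl)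
  rw [Finset.card_range] at this
  omega

end Vale.Agent.P314
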