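import Vale.Agent.P314.Defs

namespace Vale.Agent.P314

universe u

/-- prime weight of the letter `i` at position `a` -/
noncomputable def pw (n : ℕ) (i : Fin n) (a : ℕ) : ℕ := Nat.nth Nat.Prime (a * n + (i : ℕ))

lemma pw_prime (n : ℕ) (i : Fin n) (a : ℕ) : (pw n i a).Prime :=
  Nat.prime_nth_prime _

lemma pw_inj {n : ℕ} {i i' : Fin n} {a a' : ℕ} (h : pw n i a = pw n i' a') : a = a' ∧ i = i' := by
  have h1 : a * n + (i : ℕ) = a' * n + (i' : ℕ) :=
    Nat.nth_injective Nat.infinite_setOfPred_prime h
  have hi := i.isLt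
  have hi' := i'.isLt
  have ha : a = a' := by
    rcases lt_trichotomy a a' with hlt | heq | hgt
    · exfalso
      have : (a + 1) * n ≤ a' * n := Nat.mul_le_mul_right n hlt
      nlinarith
    · exact heq
    · exfalso
      have : (a' + 1) * n ≤ a * n := Nat.mul_le_mul_right n hgt
      nlinarith
  subst ha
  exact ⟨rfl, Fin.ext (by omega)⟩

/-- weight of a word read from position `a` on -/
noncomputable def mu (n : ℕ) : List (Fin n) → ℕ → ℕ
  | [], _ => 1
  | i :: w, a => pw n i a * mu n w (a + 1)

lemma mu_pos (n : ℕ) (w : List (Fin n)) : ∀ a, 0 < mu n w a := by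
  induction w with
  | nil => intro a; simp [mu]
  | cons i w ih => intro a; exact Nat.mul_pos (pw_prime n i a).pos (ih _)

lemma prime_dvd_mu {n : ℕ} {q : ℕ} (hq : q.Prime) (w : List (Fin n)) :
    ∀ a, q ∣ mu n w a → ∃ (i : Fin n) (a' : ℕ), a ≤ a' ∧ q = pw n i a' := by
  induction w with
  | nil =>
    intro a h
    simp only [mu] at h
    exact absurd (Nat.dvd_one.mp h) hq.one_lt.ne'
  | cons i w ih =>
    intro a h
    simp only [mu] at h
    rcases (Nat.Prime.dvd_mul hq).mp h with h1 | h1
    · exact ⟨i, a, le_rfl, (Nat.prime_dvd_prime_iff_eq hq (pw_prime n i a)).mp h1⟩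
    · obtain ⟨i', a', ha', hq'⟩ := ih _ h1
      exact ⟨i', a', by omega, hq'⟩

lemma mu_inj {n : ℕ} (w : List (Fin n)) :
    ∀ (w' : List (Fin n)) (a : ℕ), w.length = w'.length → mu n w a = mu n w' a → w = w' := by
  induction w with
  | nil =>
    intro w' a hl _
    cases w' with
    | nil => rfl
    | cons _ _ => simp at hl
  | cons i w ih =>
    intro w' a hl h
    cases w' with
    | nil => simp at hl
    | cons i' w' =>
      simp only [mu] at h
      have hdvd : pw n i a ∣ pw n i' a * mu n w' (a + 1) := ⟨_, h.symm⟩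
      have hii : i = i' := by
        rcases (Nat.Prime.dvd_mul (pw_prime n i a)).mp hdvd with h1 | h1
        · exact (pw_inj ((Nat.prime_dvd_prime_iff_eq (pw_prime n i a) (pw_prime n i' a)).mp h1)).2
        · obtain ⟨j, a', ha', hq'⟩ := prime_dvd_mu (pw_prime n i a) w' _ h1
          have := (pw_inj hq').1
          omega
      subst hii
      have h2 : mu n w (a + 1) = mu n w' (a + 1) :=
        Nat.eq_of_mul_eq_mul_left (pw_prime n i a).pos h
      rw [ih w' (a + 1) (by simpa using hl) h2]

variable {F : Type u} [Field F]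

lemma primeShift_apply (n s k : ℕ) (i : Fin n) (a b : Fin (s + 1)) :
    primeShift F n s k i a b = if (a : ℕ) + 1 = (b : ℕ) then ((pw n i a : ℕ) : F) ^ k else 0 := rfl

lemma word_entry (n s k : ℕ) (w : List (Fin n)) : ∀ (a b : Fin (s + 1)),
    ((w.map (primeShift F n s k)).prod) a b =
      if (a : ℕ) + w.length = (b : ℕ) then ((mu n w a : ℕ) : F) ^ k else 0 := by
  induction w with
  | nil =>
    intro a b
    simp [Matrix.one_apply, mu, Fin.ext_iff]
  | cons i w ih =>
    intro a b
    simp only [List.map_cons, List.prod_cons, Matrix.mul_apply, List.length_cons]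
    by_cases ha : (a : ℕ) + 1 < s + 1
    · rw [Finset.sum_eq_single (⟨(a : ℕ) + 1, ha⟩ : Fin (s + 1))]
      · rw [primeShift_apply, ih]
        simp only [if_true]
        by_cases hb : (a : ℕ) + 1 + w.length = (b : ℕ)
        · rw [if_pos hb, if_pos (by omega)]
          simp only [mu]
          push_cast
          rw [mul_pow]
        · rw [if_neg hb, if_neg (by omega), mul_zero]
      · intro c _ hc
        rw [primeShift_apply, if_neg, zero_mul]
        intro h
        exact hc (Fin.ext h.symm)
      · intro h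
        exact absurd (Finset.mem_univ _) h
    · rw [if_neg (by have := b.isLt; omega)]
      refine Finset.sum_eq_zero fun c _ => ?_
      rw [primeShift_apply, if_neg (by have := c.isLt; omega), zero_mul]

end Vale.Agent.P314
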